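import Vale.Agent.P211.Cert.Pair.Roots
import Vale.Agent.P211.Cert.Vector.Data
import Vale.Agent.P211.Cert.Pair.Data.HessAxisY.Part0

/-!
P211, data: the root `axisY` of the Hessian weight, generated from the exact search.
-/

namespace Vale.Agent.P211.Cert.Pair.HessAxisY

open Vale.Agent.P098.Check6 (Face St ofChunks reach)
open Vale.Agent.P098.Cert6.Kron (RootPar)

/-- The root is good. -/
theorem root : SignRoot (hessList vecV .axisY (0, 0, 0)) par faces := by
  refine ⟨by decide +kernel, by decide +kernel, by decide +kernel, ?_⟩
  refine Check.goodSign_of_literal (lit := base.Ys) (by decide +kernel) ?_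
  rw [show commonDeg (hessList vecV .axisY (0, 0, 0)) = (4, 8, 6, 0) by decide +kernel]
  exact chunk0

end Vale.Agent.P211.Cert.Pair.HessAxisY
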