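import Vale.Agent.P211.Cert.Pair.Roots
import Vale.Agent.P211.Cert.Vector.Data
import Vale.Agent.P211.Cert.Pair.Data.PairOuterL.Part0
import Vale.Agent.P211.Cert.Pair.Data.PairOuterL.Part1
import Vale.Agent.P211.Cert.Pair.Data.PairOuterL.Part2
import Vale.Agent.P211.Cert.Pair.Data.PairOuterL.Part3
import Vale.Agent.P211.Cert.Pair.Data.PairOuterL.Part4

/-!
P211, data: the root `outerL` of the form across the gradient, generated from the exact search.
-/

namespace Vale.Agent.P211.Cert.Pair.PairOuterL

open Vale.Agent.P098.Check6 (Face St ofChunks reach)
open Vale.Agent.P098.Cert6.Kron (RootPar)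

/-- The root is good. -/
theorem root : MatRoot (pairList vecV .outerL (0, 0, 0)) par faces := by
  refine ⟨by decide +kernel, by decide +kernel, by decide +kernel, ?_⟩
  refine Check.good_of_literal (lit := base.Ys) (by decide +kernel) ?_
  rw [show commonDeg (pairList vecV .outerL (0, 0, 0)) = (8, 8, 0, 7) by decide +kernel]
  exact (Check.good_node (a := 0) (by decide +kernel)
    chunk0
    (Check.good_node (a := 1) (by decide +kernel)
    chunk1
    (Check.good_node (a := 0) (by decide +kernel)
    chunk2
    (Check.good_node (a := 3) (by decide +kernel)
    (Check.good_node (a := 3) (by decide +kernel)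
    (Check.good_node (a := 1) (by decide +kernel)
    chunk3
    (Check.good_node (a := 0) (by decide +kernel)
    chunk4
    (Check.good_node (a := 0) (by decide +kernel)
    (Check.good_node (a := 3) (by decide +kernel)
    (Check.good_node (a := 1) (by decide +kernel)
    chunk5
    (Check.good_node (a := 3) (by decide +kernel)
    (Check.good_node (a := 3) (by decide +kernel)
    (Check.good_node (a := 0) (by decide +kernel)
    chunk6
    (Check.good_node (a := 1) (by decide +kernel)
    chunk7
    (Check.good_node (a := 0) (by decide +kernel)
    chunk8
    chunk9)))
    chunk10)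
    chunk11))
    (Check.good_node (a := 1) (by decide +kernel)
    chunk12
    (Check.good_node (a := 0) (by decide +kernel)
    chunk13
    (Check.good_node (a := 1) (by decide +kernel)
    chunk14
    chunk15))))
    (Check.good_node (a := 1) (by decide +kernel)
    (Check.good_node (a := 3) (by decide +kernel)
    (Check.good_node (a := 3) (by decide +kernel)
    (Check.good_node (a := 0) (by decide +kernel)
    chunk16
    (Check.good_node (a := 1) (by decide +kernel)
    chunk17
    chunk18))
    chunk19)
    chunk20)
    (Check.good_node (a := 3) (by decide +kernel)
    (Check.good_node (a := 3) (by decide +kernel)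
    (Check.good_node (a := 1) (by decide +kernel)
    (Check.good_node (a := 0) (by decide +kernel)
    (Check.good_node (a := 0) (by decide +kernel)
    chunk21
    chunk22)
    chunk23)
    chunk24)
    chunk25)
    chunk26)))))
    chunk27)
    chunk28))))

end Vale.Agent.P211.Cert.Pair.PairOuterL
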